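import Vale.Agent.P287.H621.Nod.Chart
import Vale.Agent.P287.EvenN.Main

/-!
The block [B] of the nodal case.
-/

namespace Vale.Agent.P287.H621.Nod

open Polynomial Matrix Module Vale.Agent.P287 Vale.Agent.P287.Theta Vale.Agent.P287.Odd
open Vale.Agent.P287.EvenN Vale.Agent.P287.Nod Vale.Agent.P287.H684

/-- the number of coefficients -/
lemma finrank_En_small {n d : ℕ} (h : d < n) :
    finrank ℂ (En n d : Submodule ℂ ℂ[X][X]) = (d + 2).choose 2 := by
  rw [← finrank_homog (F := ℂ) d]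
  let φ : MvPolynomial.homogeneousSubmodule (Fin 3) ℂ d →ₗ[ℂ] ℂ[X][X] :=
    dh.toLinearMap ∘ₗ (MvPolynomial.homogeneousSubmodule (Fin 3) ℂ d).subtype
  have h1 : LinearMap.range φ = (En n d : Submodule ℂ ℂ[X][X]) := by
    apply le_antisymm
    · rintro _ ⟨P, rfl⟩
      exact wd_En h (TD_dh P.2)
    · rintro p hp
      obtain ⟨P, hP, hPp⟩ := exists_homog (Wd_iff_TD.1 hp.1)
      exact ⟨⟨P, hP⟩, hPp⟩
  rw [← h1]
  refine LinearMap.finrank_range_of_inj ?_
  intro P Q hPQ
  exact Subtype.ext (dh_inj P.2 Q.2 hPQ)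

variable {T S : Matrix (Fin 3) (Fin 3) ℂ}
variable {M : Matrix (Fin 4) (Fin 4) R3} {g : R3} {r : ℕ} {w : Fin 2 → Fin 4 → R3} {v : ℂ}

instance finite_homV (d : ℕ) : Module.Finite ℂ (Submodule.pi Set.univ fun i : Fin 4 =>
    MvPolynomial.homogeneousSubmodule (Fin 3) ℂ (d + wt0 i)) := by
  let e : (Submodule.pi Set.univ fun i : Fin 4 =>
      MvPolynomial.homogeneousSubmodule (Fin 3) ℂ (d + wt0 i)) →ₗ[ℂ]
      (∀ i : Fin 4, MvPolynomial.homogeneousSubmodule (Fin 3) ℂ (d + wt0 i)) :=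
    LinearMap.pi fun i => LinearMap.codRestrict _ (LinearMap.proj i ∘ₗ Submodule.subtype _)
      (by intro v; exact v.2 i (Set.mem_univ _))
  refine Module.Finite.of_injective e ?_
  intro v w h
  apply Subtype.ext
  funext i
  exact congrArg Subtype.val (congrFun h i)

instance finite_Xh (d : ℕ) : Module.Finite ℂ (Xh M g w d) := by
  have h : Xh M g w d ≤ Submodule.pi Set.univ fun i : Fin 4 =>
      MvPolynomial.homogeneousSubmodule (Fin 3) ℂ (d + wt0 i) := fun v hv i _ => hv.1 i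
  exact Submodule.finiteDimensional_of_le h

namespace Chart

variable (D : Chart M g r w T S v)
include D

lemma toA_injective (d : ℕ) : Function.Injective (toA T (Xh M g w d)) := by
  intro x y h
  apply Subtype.ext
  funext i
  exact ch_inj (T := T) D.inv (x.2.1 i) (y.2.1 i) (congrFun h i)

lemma finrank_Xh (d : ℕ) :
    finrank ℂ (Xh M g w d) = finrank ℂ (LinearMap.range (toA T (Xh M g w d))) :=
  (LinearMap.finrank_range_of_inj (D.toA_injective d)).symm

lemma Yd4_le (d : ℕ) : Yd4 (2 * r) d (modXS (ch T M.det) (C (C v) * ch T g) (M.map (ch T))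
    (fun b i => ch T (w b i))) ≤ LinearMap.range (toA T (Xh M g w d)) := by
  rintro p ⟨hp, hpE⟩
  have h1 : ∀ i : Fin 4, TD (d + wt0 i) (p i) := fun i =>
    Wd_iff_TD.1 (hpE i (Set.mem_univ _)).1
  choose a ha hap using fun j => ch_surj D.inv (h1 j)
  have hav : (fun j => ch T (a j)) = p := funext hap
  refine ⟨⟨a, (D.mem_iff ha).2 ?_⟩, hav⟩
  rw [hav]
  exact hp

lemma range_toA {d : ℕ} (hd : d + 1 < 2 * r) :
    LinearMap.range (toA T (Xh M g w d)) = Yd4 (2 * r) d
      (modXS (ch T M.det) (C (C v) * ch T g) (M.map (ch T)) (fun b i => ch T (w b i))) := by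
  refine le_antisymm ?_ (D.Yd4_le d)
  rintro _ ⟨p, rfl⟩
  refine ⟨(D.mem_iff p.2.1).1 p.2, fun i _ => ?_⟩
  have h1 := H684.EvenN.wt0_le i
  exact wd_En (by omega) (TD_ch (p.2.1 i))

/-- in the case `r = 1` there is one more form of degree two, the form `g` itself -/
lemma lt_range (hr : r = 1) : Yd4 (2 * r) r (modXS (ch T M.det) (C (C v) * ch T g)
    (M.map (ch T)) (fun b i => ch T (w b i))) < LinearMap.range (toA T (Xh M g w r)) := by
  refine lt_of_le_of_ne (D.Yd4_le r) ?_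
  intro heq
  have h0 : ∀ i : Fin 4, ((Pi.single 0 g : Fin 4 → R3) i).IsHomogeneous (r + wt0 i) := by
    intro i
    by_cases hi : i = 0
    · subst hi
      rw [Pi.single_eq_same]
      have := D.scroll.hom
      rwa [show r + wt0 0 = 2 * r by rw [hr]; rfl]
    · rw [Pi.single_eq_of_ne hi]
      exact MvPolynomial.isHomogeneous_zero _ _ _
  have h1 : (Pi.single 0 g : Fin 4 → R3) ∈ Xh M g w r := by
    refine ⟨h0, fun e m _ _ => ?_⟩
    rw [single_dotProduct]
    exact Ideal.mul_mem_right _ _ (Ideal.subset_span (by simp))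
  have h2 : toA T (Xh M g w r) ⟨_, h1⟩ ∈ Yd4 (2 * r) r (modXS (ch T M.det)
      (C (C v) * ch T g) (M.map (ch T)) (fun b i => ch T (w b i))) := by
    rw [heq]
    exact ⟨_, rfl⟩
  have h3 := (h2.2 0 (Set.mem_univ _)).2 (2 * r) le_rfl
  have h4 : toA T (Xh M g w r) ⟨_, h1⟩ 0 = ch T g := by
    rw [toA_apply]
    simp
  rw [h4] at h3
  have h5 := D.curve.monic
  have h6 := D.curve.deg
  have h7 : (C (C v) * ch T g).coeff (2 * r) = 1 := by
    rw [← h6]
    exact h5
  rw [coeff_C_mul, h3, mul_zero] at h7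
  exact zero_ne_one h7

end Chart

/-- **[B]** -/
theorem stmtB (hA : StmtA) : StmtB := by
  intro M g r w hS
  obtain ⟨i0, j0, hij⟩ := hS.ind
  obtain ⟨e, hw⟩ := hS.whom
  have hr := hS.pos
  have hgh : ¬ g ∣ M.det * mnr2 w i0 j0 := fun h =>
    (hS.irr.prime.dvd_or_dvd h).elim hS.ndvd hij
  have hν := mnr2_homog hw i0 j0
  obtain ⟨T, S, v, hT⟩ := H270.OddCoord.exists_coords_pair hS.hom (by omega) hS.irr
    (hS.fib.det.mul hν) hgh
  have hC : CurveN (2 * r) (C (C v) * ch T g) (ch T M.det) :=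
    H270.OddCoord.curveN_frame hS.fib.det (by omega) hS.hom hS.irr hS.ndvd hν hT
  have hP : Plane (C (C v) * ch T g) (M.map (ch T)) (fun b i => ch T (w b i)) :=
    H270.OddCoord.plane_frame hS.fib.det hS.iso hν hT
  have hQ : Quad0 (ch T M.det) (M.map (ch T)) := by
    refine ⟨?_, fun i j => Wd_iff_TD.2 (TD_ch (H270.OddCoord.entry_hom hS.fib i j)), ?_⟩
    · rw [Matrix.IsSymm, ← Matrix.transpose_map, hS.fib.symm.eq]
    · exact (AlgHom.map_det (ch T) M).symm
  have D : Chart M g r w T S v := ⟨hS, hT.inv, hT.v_ne, hC⟩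
  have H := hA ℂ r hr _ _ _ _ hC hQ hP
  refine ⟨fun hodd => ?_, fun k l _ _ a ha b hb => ?_, ?_⟩
  · obtain ⟨e₀, he₀⟩ := H.parity
    obtain ⟨d, hd, hdodd⟩ := hodd (e₀ + 2 * r)
    obtain ⟨e', rfl⟩ : ∃ e', d = r - 1 + e' := ⟨d - (r - 1), by omega⟩
    have hF := H684.EvenN.stmtFE (2 * r) g w e T S v (by omega) hS.hom hS.irr hw hT.inv hT.v_ne
      hC.monic hC.deg hC.wd (r - 1 + e') (by omega)
    have hE := he₀ e' (by omega)
    have hX : finrank ℂ (Xh M g w (r - 1)) = finrank ℂ (Yd4 (2 * r) (r - 1)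
        (modXS (ch T M.det) (C (C v) * ch T g) (M.map (ch T)) (fun b i => ch T (w b i)))) := by
      rw [D.finrank_Xh, D.range_toA (by omega)]
    rw [← hX] at hE
    have h1 := parity_arith (r := r) (d := r - 1 + e') hr (by omega) hF
      (Z := 1 + 3 * r.choose 2 + (r - 1).choose 2) rfl
    have h2 : ¬ Even (finrank ℂ (Yd4 (2 * r) (r - 1 + e') (modW (C (C v) * dh (sb T g))
        fun a i => dh (sb T (w a i)))) + (1 + 3 * r.choose 2 + (r - 1).choose 2)) :=
      fun h => (Nat.not_even_iff_odd.2 hdodd) (h1 h)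
    change Even (finrank ℂ (Yd4 (2 * r) (r - 1 + e') (modW (C (C v) * dh (sb T g))
        fun a i => dh (sb T (w a i)))) + finrank ℂ (Xh M g w (r - 1))) at hE
    generalize finrank ℂ (Yd4 (2 * r) (r - 1 + e') (modW (C (C v) * dh (sb T g))
        fun a i => dh (sb T (w a i)))) = y at h2 hE
    generalize finrank ℂ (Xh M g w (r - 1)) = z at hE ⊢
    generalize r.choose 2 = c1 at h2 ⊢
    generalize (r - 1).choose 2 = c2 at h2 ⊢
    rw [Nat.even_iff] at h2 hE ⊢
    omega
  · rw [D.mem_span_iff (vav_hom hS.fib ha.1 hb.1) (by omega), ch_vav]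
    exact H.pair _ ((D.mem_iff ha.1).1 ha) _ ((D.mem_iff hb.1).1 hb)
  · have h1 := H.codim r
    rcases Nat.lt_or_ge 1 r with h2 | h2
    · rw [finrank_En_small (by omega), finrank_En_small (by omega)] at h1
      have h3 := Submodule.finrank_mono (D.Yd4_le r)
      rw [← D.finrank_Xh] at h3
      have e1 : r + 1 + 2 = r + 3 := by omega
      rw [e1] at h1
      omega
    · have hr1 : r = 1 := by omega
      have h3 := Submodule.finrank_lt_finrank_of_lt (D.lt_range hr1)
      rw [← D.finrank_Xh] at h3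
      have h4 := Odd.two_mul_finrank_En (k := ℂ) (n := 2 * r) (d := r + 1) (by omega)
      have h5 := Odd.two_mul_finrank_En (k := ℂ) (n := 2 * r) (d := r) (by omega)
      subst hr1
      have e1 : (1 + 2).choose 2 = 3 := by decide
      have e2 : (1 + 3).choose 2 = 6 := by decide
      rw [e1, e2]
      omega

end Vale.Agent.P287.H621.Nod
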