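import Vale.Agent.P287.H621.E3
import Vale.Agent.P287.H684.EvenN.StmtFE
import Vale.Agent.P287.H270.EvenFrame
import Vale.Agent.P287.Nod.Spec

/-!
The block [B] of the nodal case: membership in the lattice `X` is tested in the chart.
-/

namespace Vale.Agent.P287.H621.Nod

open Polynomial Matrix Module Vale.Agent.P287 Vale.Agent.P287.Theta Vale.Agent.P287.Odd
open Vale.Agent.P287.EvenN Vale.Agent.P287.Nod Vale.Agent.P287.H684

variable {T S : Matrix (Fin 3) (Fin 3) ℂ}

/-- Membership in the ideal `(f, g)` can be tested in the chart, for all degrees at least 5. -/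
theorem mem_of_chN' (hTS : T * S = 1) {f g : R3} {n d : ℕ} (hf : f.IsHomogeneous 6)
    (hg : g.IsHomogeneous n) (hn : 1 ≤ n) {f' g' : ℂ[X][X]} {u v : ℂ}
    (hf' : f' = C (C u) * ch T f) (hg' : g' = C (C v) * ch T g) (K : CurveN n g' f')
    {N : R3} (hN : N.IsHomogeneous d) (h5 : 5 ≤ d)
    (h : ch T N ∈ Ideal.span {f', g'}) : N ∈ Ideal.span {f, g} := by
  by_cases hd : n ≤ d
  · exact mem_of_chN hTS hf hg hn hf' hg' K hN h5 hd h
  obtain ⟨U, V, hUV⟩ := Ideal.mem_span_pair.1 h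
  have hdiv := modByMonic_add_div U g'
  set r := U %ₘ g' with hr
  set V' := V + f' * (U /ₘ g') with hV'
  have hTWg : TW n g' := Wd_iff_TW.1 K.wd
  have h1 : TW d (ch T N) := TW_iff_TD.2 (TD_ch hN)
  have hsum : ch T N = f' * r + g' * V' := by
    rw [hV', ← hUV]
    linear_combination (-f') * hdiv
  have h2 : (f' * r) %ₘ g' = (ch T N) %ₘ g' := by
    rw [hsum, add_modByMonic, (modByMonic_eq_zero_iff_dvd K.monic).mpr (dvd_mul_right _ _),
      add_zero]
  have hcoeff : ∀ j, n ≤ j → r.coeff j = 0 := by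
    intro j hj
    refine coeff_eq_zero_of_degree_lt ?_
    refine (degree_modByMonic_lt U K.monic).trans_le ?_
    rw [degree_eq_natDegree K.monic.ne_zero, K.deg]
    exact_mod_cast hj
  have hf'TD : TD 6 f' := Wd_iff_TD.1 K.inf.1
  have h2' : TW d ((ch T N) %ₘ g') := TW.modByMonic K.monic K.deg hTWg h1
  -- the degree of `r`
  have h4 : TD (d - 6) r ∧ (d < 6 → r = 0) := by
    by_cases h6 : 6 ≤ d
    · refine ⟨?_, fun h => by omega⟩
      have h3 : Odd.Wd (d - 6 + 6) ((f' * r) %ₘ g') := by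
        rw [Nat.sub_add_cancel h6, h2]
        exact Wd_iff_TW.2 h2'
      exact Wd_iff_TD.1 (K.inf.2 _ r hcoeff h3)
    · have hd5 : d = 5 := by omega
      have h3 : Odd.Wd (0 + 6) ((f' * r) %ₘ g') := by
        rw [h2]
        exact Wd_iff_TW.2 (h2'.mono (by omega))
      have h4 := Wd_iff_TD.1 (K.inf.2 _ r hcoeff h3)
      obtain ⟨c, hc⟩ := TD_zero_iff h4
      have h5 : Odd.Wd (0 + 6) ((f' * (C X * r)) %ₘ g') := by
        have e1 : (f' * (C X * r)) %ₘ g' = (C X * ((f' * r) %ₘ g')) %ₘ g' := by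
          have e2 := modByMonic_add_div (f' * r) g'
          have e3 : f' * (C X * r) = C X * ((f' * r) %ₘ g') + g' * (C X * ((f' * r) /ₘ g')) := by
            linear_combination (-(C X)) * e2
          rw [e3, add_modByMonic, (modByMonic_eq_zero_iff_dvd K.monic).mpr (dvd_mul_right _ _),
            add_zero]
        rw [e1, h2]
        refine Wd_iff_TW.2 (TW.modByMonic K.monic K.deg hTWg ?_)
        have e4 := (TW_CX (k := ℂ)).mul h2'
        rwa [hd5] at e4
      have h6 := K.inf.2 0 (C X * r) (by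
        intro j hj
        rw [coeff_C_mul, hcoeff j hj, mul_zero]) h5
      have h7 := h6 1 0 (by norm_num)
      have hc0 : c = 0 := by
        rw [hc, ← C_mul, coeff_C_zero, mul_comm, coeff_C_mul, coeff_X_one, mul_one] at h7
        exact h7
      have hr0 : r = 0 := by rw [hc, hc0, C_0, C_0]
      exact ⟨by rw [hr0]; exact TD_zero _, fun _ => hr0⟩
  have h5 : TW d (g' * V') := by
    have e1 : g' * V' = ch T N - f' * r := by rw [hsum]; ring
    rw [e1]
    refine TW_iff_TD.2 ((TD_ch hN).sub ?_)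
    by_cases h6 : 6 ≤ d
    · have := hf'TD.mul h4.1
      rwa [show 6 + (d - 6) = d by omega] at this
    · rw [h4.2 (by omega), mul_zero]
      exact TD_zero _
  have hV0 : V' = 0 := by
    by_contra hV
    exact hd (H684.le_of_TW_mul hTWg (monic_top K.monic K.deg).1.ne_zero hV h5)
  obtain ⟨P, hP, hPp, hP0⟩ : ∃ P : R3, P.IsHomogeneous (d - 6) ∧ ch T P = C (C u) * r ∧
      (d < 6 → P = 0) := by
    by_cases h6 : 6 ≤ d
    · obtain ⟨P, hP, hPp⟩ := ch_surj hTS (h4.1.smul u)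
      exact ⟨P, hP, hPp, fun h => by omega⟩
    · refine ⟨0, MvPolynomial.isHomogeneous_zero _ _ _, ?_, fun _ => rfl⟩
      rw [h4.2 (by omega), mul_zero, map_zero]
  have h8 : N = P * f := by
    refine ch_inj hTS hN ?_ ?_
    · by_cases h6 : 6 ≤ d
      · have := hP.mul hf
        rwa [show d - 6 + 6 = d by omega] at this
      · rw [hP0 (by omega), zero_mul]
        exact MvPolynomial.isHomogeneous_zero _ _ _
    · rw [map_mul, hPp, hsum, hf', hV0, mul_zero, add_zero]
      ring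
  rw [h8]
  exact Ideal.mul_mem_left _ _ (Ideal.subset_span (by simp))

lemma adj_hom {M : Matrix (Fin 4) (Fin 4) R3} (hM : FibShape M) (i j : Fin 4) :
    (M.adjugate i j).IsHomogeneous (5 - wt0 i - wt0 j) := by
  have hdeg : ∀ i j, (M i j).IsHomogeneous (1 + wt0 i + wt0 j) :=
    H270.OddCoord.entry_hom hM
  refine H908.adj_hom₂ M (fun i => 1 + wt0 i) wt0 hdeg i j _ ?_
  have h1 : ∑ i, (1 + wt0 i) = 5 := by decide
  have h2 : ∑ i, wt0 i = 1 := by decide
  have := H684.EvenN.wt0_le i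
  have := H684.EvenN.wt0_le j
  rw [h1, h2]
  omega

/-- the degree of `vᵀ adj(M) v'` -/
lemma vav_hom {M : Matrix (Fin 4) (Fin 4) R3} (hM : FibShape M) {d e : ℕ} {v m : Fin 4 → R3}
    (hv : ∀ i, (v i).IsHomogeneous (d + wt0 i)) (hm : ∀ i, (m i).IsHomogeneous (e + wt0 i)) :
    (v ⬝ᵥ (M.adjugate *ᵥ m)).IsHomogeneous (d + e + 5) := by
  refine MvPolynomial.IsHomogeneous.sum _ _ _ fun i _ => ?_
  have h1 : ((M.adjugate *ᵥ m) i).IsHomogeneous (e + 5 - wt0 i) := by
    refine MvPolynomial.IsHomogeneous.sum _ _ _ fun j _ => ?_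
    have h2 := (adj_hom hM i j).mul (hm j)
    have := H684.EvenN.wt0_le i
    have := H684.EvenN.wt0_le j
    rwa [show 5 - wt0 i - wt0 j + (e + wt0 j) = e + 5 - wt0 i by omega] at h2
  have h2 := (hv i).mul h1
  have := H684.EvenN.wt0_le i
  rwa [show d + wt0 i + (e + 5 - wt0 i) = d + e + 5 by omega] at h2

lemma ch_vav (T : Matrix (Fin 3) (Fin 3) ℂ) (M : Matrix (Fin 4) (Fin 4) R3) (v m : Fin 4 → R3) :
    ch T (v ⬝ᵥ (M.adjugate *ᵥ m)) =
      (fun i => ch T (v i)) ⬝ᵥ ((M.map (ch T)).adjugate *ᵥ fun i => ch T (m i)) := by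
  rw [H684.EvenN.ch_dot]
  congr 1
  funext i
  rw [adj_map4]

lemma exists_TD (p : ℂ[X][X]) : ∃ d, TD d p := by
  refine ⟨p.natDegree + p.support.sup fun j => (p.coeff j).natDegree, ?_⟩
  refine Wd_iff_TD.1 fun i j hij => ?_
  by_cases hj : j ∈ p.support
  · have h1 : j ≤ p.natDegree := le_natDegree_of_mem_supp j hj
    have h2 : (p.coeff j).natDegree ≤ p.support.sup fun j => (p.coeff j).natDegree :=
      Finset.le_sup (f := fun j => (p.coeff j).natDegree) hj
    exact coeff_eq_zero_of_natDegree_lt (by omega)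
  · rw [notMem_support_iff.1 hj, coeff_zero]

/-- The data of the chart. -/
structure Chart (M : Matrix (Fin 4) (Fin 4) R3) (g : R3) (r : ℕ) (w : Fin 2 → Fin 4 → R3)
    (T S : Matrix (Fin 3) (Fin 3) ℂ) (v : ℂ) : Prop where
  scroll : ScrollN M g r w
  inv : T * S = 1
  v_ne : v ≠ 0
  curve : CurveN (2 * r) (C (C v) * ch T g) (ch T M.det)

variable {M : Matrix (Fin 4) (Fin 4) R3} {g : R3} {r : ℕ} {w : Fin 2 → Fin 4 → R3} {v : ℂ}

namespace Chart

variable (D : Chart M g r w T S v)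
include D

lemma mem_span_iff {d : ℕ} {N : R3} (hN : N.IsHomogeneous d) (h5 : 5 ≤ d) :
    N ∈ Ideal.span {M.det, g} ↔ ch T N ∈ Ideal.span {ch T M.det, C (C v) * ch T g} := by
  have hf1 : ch T M.det = C (C (1 : ℂ)) * ch T M.det := by rw [C_1, C_1, one_mul]
  constructor
  · exact fun h => ch_mem one_ne_zero D.v_ne hf1 rfl h
  · exact fun h => mem_of_chN' D.inv D.scroll.fib.det D.scroll.hom
      (by have := D.scroll.pos; omega) hf1 rfl D.curve hN h5 h

lemma dvd_iff {d : ℕ} {P : R3} (hP : P.IsHomogeneous d) :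
    g ∣ P ↔ C (C v) * ch T g ∣ ch T P := by
  constructor
  · intro h
    have hu : IsUnit (C (C v) : ℂ[X][X]) :=
      isUnit_C.2 (isUnit_C.2 (isUnit_iff_ne_zero.2 D.v_ne))
    rw [hu.mul_left_dvd]
    exact _root_.map_dvd (ch T) h
  · exact fun h => H684.EvenN.dvd_of_ch D.inv D.scroll.hom hP rfl D.curve.monic D.curve.deg
      D.curve.wd h

/-- Membership in `X` is tested in the chart. -/
theorem mem_iff {d : ℕ} {a : Fin 4 → R3} (ha : ∀ i, (a i).IsHomogeneous (d + wt0 i)) :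
    a ∈ Xh M g w d ↔ (fun i => ch T (a i)) ∈ modXS (ch T M.det) (C (C v) * ch T g)
      (M.map (ch T)) (fun b i => ch T (w b i)) := by
  obtain ⟨e, hw⟩ := D.scroll.whom
  constructor
  · rintro ⟨-, h⟩ m hm
    -- lift `m`
    choose E hE using fun i => exists_TD (m i)
    obtain ⟨q, hq⟩ : ∃ q : ℕ, ∀ i, E i ≤ q := ⟨∑ i, E i, fun i =>
      Finset.single_le_sum (fun _ _ => Nat.zero_le _) (Finset.mem_univ i)⟩
    have h1 : ∀ i, ∃ P : R3, P.IsHomogeneous (q + wt0 i) ∧ ch T P = m i := fun i =>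
      ch_surj D.inv ((hE i).mono (by have := hq i; omega))
    choose m' hm' hm'' using h1
    have h2 : (fun i => ch T (m' i)) = m := funext hm''
    rw [← h2, ← ch_vav]
    refine (D.mem_span_iff (vav_hom D.scroll.fib ha hm') (by omega)).1 (h q m' hm' fun b => ?_)
    rw [D.dvd_iff (H684.EvenN.dot_homog (hw b) hm'), H684.EvenN.ch_dot, h2]
    exact hm b
  · intro h
    refine ⟨ha, fun q m hm hgm => ?_⟩
    rw [D.mem_span_iff (vav_hom D.scroll.fib ha hm) (by omega), ch_vav]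
    refine h _ fun b => ?_
    rw [← H684.EvenN.ch_dot, ← D.dvd_iff (H684.EvenN.dot_homog (hw b) hm)]
    exact hgm b

end Chart

end Vale.Agent.P287.H621.Nod
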